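import Mathlib

/-!
A fractional vertex cover with small weights for a uniform hypergraph of bounded degree, obtained
from a minimiser of `(sum of squared loads) / 2 - r * (total weight)` over edge weights in `[0,1]`.
-/

namespace Vale.Agent.P045.Spread

open Finset

/-- Weighted independence bound: the total weight squared is at most the matching number times
the quadratic form of the intersection relation. -/
theorem sq_weight_le {V : Type*} [DecidableEq V] (y : Finset V → ℝ) (hy : ∀ e, 0 ≤ y e) :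
    ∀ (H : Finset (Finset V)) (nu : ℕ), (∀ e ∈ H, e.Nonempty) →
      (∀ M ⊆ H, (M : Set (Finset V)).PairwiseDisjoint id → M.card ≤ nu) →
      (∑ e ∈ H, y e) ^ 2 ≤
        nu * ∑ e ∈ H, y e * ∑ f ∈ H.filter (fun f => ¬Disjoint e f), y f := by
  intro H
  induction H using Finset.strongInduction with
  | _ H ih =>
    intro nu hne hnu
    rcases H.eq_empty_or_nonempty with h0 | hH
    · subst h0; simp
    set c : Finset V → ℝ := fun e => ∑ f ∈ H.filter (fun f => ¬Disjoint e f), y f with hc
    obtain ⟨e, he, hmin⟩ := Finset.exists_min_image H c hH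
    set N := H.filter (fun f => ¬Disjoint e f) with hN
    set R := H.filter (fun f => Disjoint e f) with hR
    have heR : e ∉ R := fun h => (hne e he).ne_empty (by simpa using (mem_filter.1 h).2)
    have hsub : R ⊆ H := filter_subset _ _
    have hss : R ⊂ H := Finset.ssubset_iff_subset_ne.2 ⟨hsub, fun h => heR (h ▸ he)⟩
    have hnu1 : 1 ≤ nu := by
      simpa using hnu {e} (by simpa using he) (by simp)
    have hR' := ih R hss (nu - 1) (fun f hf => hne f (hsub hf)) (fun M hM hd => by
      have h1 : insert e M ⊆ H := insert_subset he (hM.trans hsub)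
      have h2 : ((insert e M : Finset (Finset V)) : Set (Finset V)).PairwiseDisjoint id := by
        rw [coe_insert]
        exact hd.insert fun f hf _ => (mem_filter.1 (hM hf)).2
      have h3 := hnu _ h1 h2
      rw [card_insert_of_notMem (fun h => heR (hM h))] at h3
      omega)
    have hsplit : ∀ g : Finset V → ℝ, ∑ f ∈ H, g f = ∑ f ∈ N, g f + ∑ f ∈ R, g f := by
      intro g
      rw [← sum_filter_add_sum_filter_not H (fun f => ¬Disjoint e f) g, hN, hR]
      congr 1
      exact sum_congr (filter_congr (by simp)) (fun _ _ => rfl)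
    have hcR : ∀ f ∈ R, ∑ g ∈ R.filter (fun g => ¬Disjoint f g), y g ≤ c f := fun f _ =>
      sum_le_sum_of_subset_of_nonneg (filter_subset_filter _ hsub) (fun g _ _ => hy g)
    have hce : c e = ∑ f ∈ N, y f := rfl
    have h1 : c e ^ 2 ≤ ∑ f ∈ N, y f * c f := by
      calc c e ^ 2 = (∑ f ∈ N, y f) * c e := sq _
        _ = ∑ f ∈ N, y f * c e := sum_mul _ _ _
        _ ≤ _ := sum_le_sum fun f hf =>
          mul_le_mul_of_nonneg_left (hmin f (mem_filter.1 hf).1) (hy f)
    have h2 : ∑ f ∈ R, y f * ∑ g ∈ R.filter (fun g => ¬Disjoint f g), y g ≤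
        ∑ f ∈ R, y f * c f :=
      sum_le_sum fun f hf => mul_le_mul_of_nonneg_left (hcR f hf) (hy f)
    rw [hsplit y, hsplit (fun f => y f * c f), ← hce]
    obtain ⟨k, rfl⟩ : ∃ k, nu = k + 1 := ⟨nu - 1, by omega⟩
    simp only [Nat.add_sub_cancel] at hR'
    have hk : (0 : ℝ) ≤ k := k.cast_nonneg
    have hQ : (∑ f ∈ R, y f) ^ 2 ≤ k * ∑ f ∈ R, y f * c f :=
      hR'.trans (mul_le_mul_of_nonneg_left h2 hk)
    push_cast
    rcases hk.eq_or_lt with h0 | h0
    · have : ∑ f ∈ R, y f = 0 := by
        have h := hQ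
        rw [← h0, zero_mul] at h
        exact pow_eq_zero_iff two_ne_zero |>.1 (le_antisymm h (sq_nonneg _))
      have hpos : 0 ≤ ∑ f ∈ R, y f * c f :=
        sum_nonneg fun f _ => mul_nonneg (hy f) (sum_nonneg fun g _ => hy g)
      rw [← h0, this]; nlinarith
    · refine le_of_mul_le_mul_left ?_ h0
      nlinarith [sq_nonneg ((k : ℝ) * c e - ∑ f ∈ R, y f), mul_le_mul_of_nonneg_left h1
        (mul_nonneg hk (by linarith : (0:ℝ) ≤ (k:ℝ) + 1)),
        mul_le_mul_of_nonneg_left hQ (by linarith : (0:ℝ) ≤ (k:ℝ) + 1)]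

/-- A fractional cover with all weights at most `D / r` and total weight at most
`(r - (r - 1) / D) * nu`. -/
theorem exists_small_weights {V : Type*} [Fintype V] [DecidableEq V] (r nu D : ℕ) (hr : 1 ≤ r)
    (hD : 1 ≤ D) (H : Finset (Finset V)) (hu : ∀ e ∈ H, e.card = r)
    (hdeg : ∀ v, (H.filter fun e => v ∈ e).card ≤ D)
    (hnu : ∀ M ⊆ H, (M : Set (Finset V)).PairwiseDisjoint id → M.card ≤ nu) :
    ∃ w : V → ℝ, (∀ v, 0 ≤ w v ∧ w v ≤ (D : ℝ) / r) ∧ (∀ e ∈ H, 1 ≤ ∑ v ∈ e, w v) ∧
      ∑ v, w v ≤ ((r : ℝ) - ((r : ℝ) - 1) / D) * nu := by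
  classical
  set L : (Finset V → ℝ) → V → ℝ := fun y v => ∑ e ∈ H, if v ∈ e then y e else 0 with hL
  set F : (Finset V → ℝ) → ℝ := fun y => (∑ v, L y v ^ 2) / 2 - r * ∑ e ∈ H, y e with hF
  have hcontL : ∀ v, Continuous fun y => L y v := fun v =>
    continuous_finsetSum _ fun e _ => by
      by_cases h : v ∈ e
      · simp only [if_pos h]; exact continuous_apply e
      · simp only [if_neg h]; exact continuous_const
  have hcont : Continuous F :=
    ((continuous_finsetSum _ fun v _ => (hcontL v).pow 2).div_const 2).sub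
      (continuous_const.mul (continuous_finsetSum _ fun e _ => continuous_apply e))
  obtain ⟨y, hy, hmin⟩ := (isCompact_Icc (a := (0 : Finset V → ℝ)) (b := 1)).exists_isMinOn
    (Set.nonempty_Icc.2 (by intro e; simp)) hcont.continuousOn
  have hy0 : ∀ e, 0 ≤ y e := fun e => hy.1 e
  have hy1 : ∀ e, y e ≤ 1 := fun e => hy.2 e
  have key : ∀ e ∈ H, ∀ s : ℝ, 0 ≤ y e + s → y e + s ≤ 1 →
      0 ≤ s * ((∑ v ∈ e, L y v) - r) + s ^ 2 * r / 2 := by
    intro e he s h0 h1
    set z := Function.update y e (y e + s) with hz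
    have hzmem : z ∈ Set.Icc (0 : Finset V → ℝ) 1 := by
      constructor <;> intro f <;> by_cases hf : f = e
      · subst hf; simpa [z] using h0
      · simpa [z, hf] using hy0 f
      · subst hf; simpa [z] using h1
      · simpa [z, hf] using hy1 f
    have hLz : ∀ v, L z v = L y v + if v ∈ e then s else 0 := by
      intro v
      simp only [hL]
      rw [← add_sum_erase _ _ he, ← add_sum_erase (f := fun f => if v ∈ f then y f else 0) _ he]
      have : ∀ f ∈ H.erase e, (if v ∈ f then z f else 0) = if v ∈ f then y f else 0 := by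
        intro f hf; simp [z, (mem_erase.1 hf).1]
      rw [sum_congr rfl this]
      by_cases hv : v ∈ e <;> simp [z, hv]
      ring
    have hYz : ∑ f ∈ H, z f = (∑ f ∈ H, y f) + s := by
      rw [sum_update_of_mem he, ← add_sum_erase _ _ he, sdiff_singleton_eq_erase]; ring
    have h2 : ∑ v, L z v ^ 2 = (∑ v, L y v ^ 2) + 2 * s * (∑ v ∈ e, L y v) + s ^ 2 * r := by
      have : ∀ v, L z v ^ 2 = L y v ^ 2 + if v ∈ e then 2 * s * L y v + s ^ 2 else 0 := by
        intro v; rw [hLz v]; split_ifs <;> ring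
      simp only [this]
      rw [sum_add_distrib, ← sum_filter, filter_mem_eq_inter, univ_inter, sum_add_distrib,
        ← mul_sum, sum_const, hu e he, nsmul_eq_mul]
      ring
    have := hmin hzmem
    simp only [hF, Set.mem_ofPred_eq] at this
    rw [hYz, h2] at this
    nlinarith
  have hrR : (1 : ℝ) ≤ r := by exact_mod_cast hr
  have hDR : (1 : ℝ) ≤ D := by exact_mod_cast hD
  have hLge : ∀ v, ∀ e ∈ H, v ∈ e → y e ≤ L y v := by
    intro v e he hv
    have h := single_le_sum (f := fun f => if v ∈ f then y f else 0)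
      (fun f _ => by split_ifs <;> simp [hy0 f]) he
    simpa [hv] using h
  have hlow : ∀ e ∈ H, (r : ℝ) ≤ ∑ v ∈ e, L y v := by
    intro e he
    rcases (hy1 e).eq_or_lt with h | h
    · calc (r : ℝ) = ∑ v ∈ e, (1 : ℝ) := by simp [hu e he]
        _ ≤ _ := sum_le_sum fun v hv => h ▸ hLge v e he hv
    · by_contra hcon
      push Not at hcon
      set g := (r : ℝ) - ∑ v ∈ e, L y v with hg
      set s := min (1 - y e) (g / r) with hs
      have hs0 : 0 < s := lt_min (by linarith) (by apply div_pos <;> linarith)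
      have hsg : s * r ≤ g :=
        calc s * r ≤ g / r * r := by nlinarith [min_le_right (1 - y e) (g / r)]
          _ = g := by field_simp
      have := key e he s (by linarith [hy0 e]) (by linarith [min_le_left (1 - y e) (g / r)])
      nlinarith [mul_le_mul_of_nonneg_left hsg hs0.le]
  have hup : ∀ e ∈ H, y e * ∑ v ∈ e, L y v ≤ y e * r := by
    intro e he
    rcases (hy0 e).eq_or_lt with h | h
    · simp [← h]
    · refine mul_le_mul_of_nonneg_left ?_ h.le
      by_contra hcon
      push Not at hcon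
      set g := (∑ v ∈ e, L y v) - r with hg
      set s := min (y e) (g / r) with hs
      have hs0 : 0 < s := lt_min h (by apply div_pos <;> linarith)
      have hsg : s * r ≤ g :=
        calc s * r ≤ g / r * r := by nlinarith [min_le_right (y e) (g / r)]
          _ = g := by field_simp
      have := key e he (-s) (by linarith [min_le_left (y e) (g / r)]) (by linarith [hy1 e])
      nlinarith [mul_le_mul_of_nonneg_left hsg hs0.le]
  set Y := ∑ e ∈ H, y e with hY
  have hswap : ∀ g : V → ℝ, ∑ v, L y v * g v = ∑ e ∈ H, y e * ∑ v ∈ e, g v := by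
    intro g
    simp only [hL, sum_mul, ite_mul, zero_mul]
    rw [sum_comm]
    refine sum_congr rfl fun e _ => ?_
    rw [← sum_filter, filter_mem_eq_inter, univ_inter, mul_sum]
  have hsumL : ∑ v, L y v = r * Y := by
    have h := hswap fun _ => 1
    simp only [mul_one, sum_const, nsmul_eq_mul] at h
    rw [h, hY, mul_sum]
    exact sum_congr rfl fun e he => by rw [hu e he]; ring
  have hL2 : ∑ v, L y v ^ 2 ≤ r * Y := by
    simp only [sq]
    rw [hswap, hY, mul_sum]
    exact sum_le_sum fun e he => (hup e he).trans_eq (mul_comm _ _)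
  have hLcs : ∀ v, L y v ^ 2 ≤ D * ∑ e ∈ H, if v ∈ e then y e ^ 2 else 0 := by
    intro v
    simp only [hL, ← sum_filter]
    refine sq_sum_le_card_mul_sum_sq.trans (mul_le_mul_of_nonneg_right ?_ ?_)
    · exact_mod_cast hdeg v
    · exact sum_nonneg fun e _ => sq_nonneg _
  have hsq : ∑ v, L y v ^ 2 ≤ D * r * ∑ e ∈ H, y e ^ 2 := by
    refine (sum_le_sum fun v _ => hLcs v).trans_eq ?_
    rw [← mul_sum, sum_comm, mul_assoc, mul_sum (a := (r : ℝ))]
    congr 1
    refine sum_congr rfl fun e he => ?_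
    rw [← sum_filter, filter_mem_eq_inter, univ_inter, sum_const, hu e he, nsmul_eq_mul]
  have hQ : ∑ e ∈ H, y e * (∑ f ∈ H.filter (fun f => ¬Disjoint e f), y f) +
      ((r : ℝ) - 1) * ∑ e ∈ H, y e ^ 2 ≤ ∑ v, L y v ^ 2 := by
    simp only [sq (L y _)]
    rw [hswap, mul_sum, ← sum_add_distrib]
    refine sum_le_sum fun e he => ?_
    have h1 : ∑ v ∈ e, L y v = ∑ f ∈ H, ((e.filter fun v => v ∈ f).card : ℝ) * y f := by
      simp only [hL]
      rw [sum_comm]
      exact sum_congr rfl fun f _ => by rw [← sum_filter, sum_const, nsmul_eq_mul]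
    have h2 : ∑ f ∈ H.filter (fun f => ¬Disjoint e f), y f + ((r : ℝ) - 1) * y e ≤
        ∑ v ∈ e, L y v := by
      rw [h1, sum_filter, ← add_sum_erase _ _ he,
        ← add_sum_erase (f := fun f => ((e.filter fun v => v ∈ f).card : ℝ) * y f) _ he]
      have hee : (e.filter fun v => v ∈ e).card = r := by
        rw [filter_true_of_mem (fun _ h => h), hu e he]
      have hne : ¬Disjoint e e := by
        simp only [disjoint_self, bot_eq_empty]
        intro h; have := hu e he; simp [h] at this; omega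
      have hrest : ∑ f ∈ H.erase e, (if ¬Disjoint e f then y f else 0) ≤
          ∑ f ∈ H.erase e, ((e.filter fun v => v ∈ f).card : ℝ) * y f := by
        refine sum_le_sum fun f _ => ?_
        split_ifs with h
        · exact mul_nonneg (Nat.cast_nonneg _) (hy0 f)
        · refine le_mul_of_one_le_left (hy0 f) ?_
          obtain ⟨v, hv, hv'⟩ := not_disjoint_iff.1 h
          exact_mod_cast card_pos.2 ⟨v, mem_filter.2 ⟨hv, hv'⟩⟩
      rw [hee, if_pos hne]
      linarith
    calc _ = y e * (∑ f ∈ H.filter (fun f => ¬Disjoint e f), y f + ((r : ℝ) - 1) * y e) := by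
          ring
      _ ≤ _ := mul_le_mul_of_nonneg_left h2 (hy0 e)
  have hM := sq_weight_le y hy0 H nu
    (fun e he => card_pos.1 (by rw [hu e he]; omega)) hnu
  refine ⟨fun v => L y v / r, fun v => ⟨div_nonneg (sum_nonneg fun e _ => ?_) (by linarith), ?_⟩,
    fun e he => ?_, ?_⟩
  · split_ifs <;> simp [hy0 e]
  · refine div_le_div_of_nonneg_right ?_ (by linarith)
    simp only [hL, ← sum_filter]
    calc _ ≤ ∑ e ∈ H.filter (fun e => v ∈ e), (1 : ℝ) := sum_le_sum fun e _ => hy1 e
      _ ≤ _ := by simpa using hdeg v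
  · rw [← sum_div, le_div_iff₀ (by linarith), one_mul]
    exact hlow e he
  · rw [← sum_div, hsumL, mul_div_cancel_left₀ _ (by linarith)]
    have hY0 : 0 ≤ Y := sum_nonneg fun e _ => hy0 e
    set T := ∑ e ∈ H, y e ^ 2 with hT
    set S := ∑ v, L y v ^ 2 with hS
    rcases hY0.eq_or_lt with h | h
    · rw [← h]
      refine mul_nonneg ?_ (Nat.cast_nonneg _)
      have : ((r : ℝ) - 1) / D ≤ (r : ℝ) - 1 := div_le_self (by linarith) hDR
      linarith
    · refine le_of_mul_le_mul_right ?_ h
      have hlow' : ((r : ℝ) - 1) / (D * r) * S ≤ ((r : ℝ) - 1) * T := by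
        rw [div_mul_eq_mul_div, div_le_iff₀ (by positivity)]
        nlinarith [mul_le_mul_of_nonneg_left hsq (by linarith : (0 : ℝ) ≤ r - 1)]
      have hc0 : (0 : ℝ) ≤ 1 - ((r : ℝ) - 1) / (D * r) := by
        rw [sub_nonneg, div_le_one (by positivity)]; nlinarith
      calc Y * Y = Y ^ 2 := (sq Y).symm
        _ ≤ nu * _ := hM
        _ ≤ nu * ((1 - ((r : ℝ) - 1) / (D * r)) * S) :=
          mul_le_mul_of_nonneg_left (by linarith) (Nat.cast_nonneg _)
        _ ≤ nu * ((1 - ((r : ℝ) - 1) / (D * r)) * (r * Y)) :=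
          mul_le_mul_of_nonneg_left (mul_le_mul_of_nonneg_left hL2 hc0) (Nat.cast_nonneg _)
        _ = _ := by field_simp

end Vale.Agent.P045.Spread
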