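import Vale.Agent.P045.Spread.Round

/-!
Iterating the bites: blocks of bounded size with small weights and small pair weights admit a
cover by almost as many blocks as their total weight, up to a small fraction of the points.
-/

namespace Vale.Agent.P045.Spread

open Finset

variable {α ι : Type*} [DecidableEq α] [Fintype ι] [DecidableEq ι]
variable {D : ℕ} {κ θ : ℝ} {P : Finset α} {B : ι → Finset α} {w : ι → ℝ}

/-- The points lying in none of the chosen blocks. -/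
def uncov (P : Finset α) (B : ι → Finset α) (C : Finset ι) : Finset α :=
  P.filter fun e => Disjoint (star B e) C

/-- The cost of a bite, as a function of the random subset. -/
noncomputable def cost (D : ℕ) (θ c g : ℝ) (P : Finset α) (B : ι → Finset α) (w : ι → ℝ) (S : Finset ι) : ℝ :=
  (S.card : ℝ) +
    ∑ e ∈ P, (if left θ B w e S < 1 - 3 * (D : ℝ) ^ 2 * θ ^ 2 then miss (star B e) S else 0) +
    c * ∑ v, (if (B v).Nonempty then
      boost θ B w v / (1 - 3 * (D : ℝ) ^ 2 * θ ^ 2) * miss (near B v) S else 0) +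
    g * ∑ e ∈ P, miss (star B e) S

theorem ex_cost_le (h : Sparse D κ P B w) (hhi : ∀ e ∈ P, ∑ u ∈ star B e, w u ≤ 1 + κ)
    (hD : 1 ≤ D) (hθ : 0 < θ) (hθD : 10 * (D : ℝ) ^ 2 * θ ≤ 1) (hκ : 0 < κ)
    (hκθ : κ ≤ (D : ℝ) ^ 2 * θ ^ 2) (hκD : (D : ℝ) ^ 2 * κ ≤ θ) (c g : ℝ) (hc : 0 ≤ c)
    (hg : 0 ≤ g) :
    ex (fun u => θ * w u) (cost D θ c g P B w) ≤
      θ * ∑ v, w v + c * ((1 - θ * (1 - 5 * (D : ℝ) ^ 2 * θ)) * ∑ v, w v) +
        (48 * κ / θ ^ 4 + g / (1 + θ)) * (P.card : ℝ) := by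
  classical
  have hDR : (1 : ℝ) ≤ D := by exact_mod_cast hD
  have hDD : (D : ℝ) ≤ (D : ℝ) ^ 2 := le_self_pow₀ hDR two_ne_zero
  have hθ1 : θ ≤ 1 / 10 := by nlinarith
  have hκ1 : κ ≤ θ := by nlinarith
  have hθD1 : θ * D ≤ 1 / 10 := by nlinarith
  have hη1 : 3 * (D : ℝ) ^ 2 * θ ^ 2 ≤ 1 / 2 := by nlinarith
  have hp' : ∀ u, 0 ≤ θ * w u ∧ θ * w u ≤ 1 := fun u => ⟨mul_nonneg hθ.le (h.nonneg u), by
    nlinarith [mul_le_mul_of_nonneg_left (h.small u) hθ.le]⟩
  set Q := 1 - θ * (1 - 5 * (D : ℝ) ^ 2 * θ) with hQ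
  have hQ0 : 0 ≤ Q := by rw [hQ]; nlinarith
  unfold cost
  rw [ex_add, ex_add, ex_add, ex_card, ex_smul, ex_smul, ex_sum, ex_sum, ex_sum]
  have hA : ∑ v, θ * w v = θ * ∑ v, w v := (mul_sum _ _ _).symm
  have hW : ∑ v, ex (fun u => θ * w u) (fun S => if (B v).Nonempty then
      boost θ B w v / (1 - 3 * (D : ℝ) ^ 2 * θ ^ 2) * miss (near B v) S else 0) ≤
      Q * ∑ v, w v := by
    rw [mul_sum]
    refine sum_le_sum fun v _ => ?_
    by_cases hv : (B v).Nonempty
    · simp only [if_pos hv, ex_smul, ex_miss]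
      rw [div_mul_eq_mul_div, div_le_iff₀ (by linarith)]
      exact (boost_near_le h hD hθ hθD hκ hκD hv).trans_eq (by rw [hQ]; ring)
    · simp only [if_neg hv, ex_const]
      exact mul_nonneg hQ0 (h.nonneg v)
  have hBad : ∑ e ∈ P, ex (fun u => θ * w u) (fun S =>
      if left θ B w e S < 1 - 3 * (D : ℝ) ^ 2 * θ ^ 2 then miss (star B e) S else 0) ≤
      48 * κ / θ ^ 4 * (P.card : ℝ) := by
    refine (sum_le_card_nsmul _ _ _ fun e he =>
      bad_le h hhi hD hθ hθD hκ hκθ hκD he).trans_eq ?_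
    rw [nsmul_eq_mul, mul_comm]
  have hSurv : ∑ e ∈ P, ex (fun u => θ * w u) (fun S => miss (star B e) S) ≤
      (P.card : ℝ) * (1 / (1 + θ)) := by
    refine (sum_le_card_nsmul _ _ (1 / (1 + θ)) fun e he => ?_).trans_eq (nsmul_eq_mul _ _)
    rw [ex_miss, le_div_iff₀ (by linarith)]
    refine le_trans ?_ (prod_mul_one_add_sum_le (star B e) fun u _ => hp' u)
    refine mul_le_mul_of_nonneg_left ?_ (prod_nonneg fun u _ => sub_nonneg.2 (hp' u).2)
    rw [← mul_sum]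
    nlinarith [mul_le_mul_of_nonneg_left (h.cover e he) hθ.le]
  rw [hA]
  calc _ ≤ θ * ∑ v, w v + 48 * κ / θ ^ 4 * (P.card : ℝ) + c * (Q * ∑ v, w v) +
        g * ((P.card : ℝ) * (1 / (1 + θ))) := by gcongr
    _ = _ := by ring

/-- One bite: the new instance, the points given up, and the linear bookkeeping. -/
theorem bite (h : Sparse D κ P B w) (hhi : ∀ e ∈ P, ∑ u ∈ star B e, w u ≤ 1 + κ)
    (hD : 1 ≤ D) (hθ : 0 < θ) (hθD : 10 * (D : ℝ) ^ 2 * θ ≤ 1) (hκ : 0 < κ)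
    (hκθ : κ ≤ (D : ℝ) ^ 2 * θ ^ 2) (hκD : (D : ℝ) ^ 2 * κ ≤ θ) (c g : ℝ) (hc : 0 ≤ c)
    (hg : 0 ≤ g) :
    ∃ (S : Finset ι) (P' : Finset α) (B' : ι → Finset α) (w' : ι → ℝ),
      Sparse D (4 * κ) P' B' w' ∧ P' ⊆ uncov P B S ∧ (∀ v, B' v ⊆ B v) ∧
      (S.card : ℝ) + ((uncov P B S \ P').card : ℝ) + c * ∑ v, w' v + g * (P'.card : ℝ) ≤
        θ * ∑ v, w v + c * ((1 - θ * (1 - 5 * (D : ℝ) ^ 2 * θ)) * ∑ v, w v) +
          (48 * κ / θ ^ 4 + g / (1 + θ)) * (P.card : ℝ) := by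
  classical
  have hDR : (1 : ℝ) ≤ D := by exact_mod_cast hD
  have hDD : (D : ℝ) ≤ (D : ℝ) ^ 2 := le_self_pow₀ hDR two_ne_zero
  have hθ1 : θ ≤ 1 / 10 := by nlinarith
  have hκ1 : κ ≤ θ := by nlinarith
  have hθDle : θ * D ≤ 1 / 10 := by nlinarith
  set η := 3 * (D : ℝ) ^ 2 * θ ^ 2 with hη
  have hη1 : η ≤ 1 / 2 := by nlinarith
  have hη0 : 0 ≤ η := by positivity
  set p : ι → ℝ := fun u => θ * w u with hp_def
  have hp' : ∀ u, 0 ≤ p u ∧ p u ≤ 1 := fun u => ⟨mul_nonneg hθ.le (h.nonneg u), by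
    nlinarith [mul_le_mul_of_nonneg_left (h.small u) hθ.le]⟩
  set nw : Finset ι → ι → ℝ := fun S v =>
    if (B v).Nonempty then boost θ B w v / (1 - η) * miss (near B v) S else 0 with hnw
  set bad : α → Finset ι → ℝ := fun e S =>
    if left θ B w e S < 1 - η then miss (star B e) S else 0 with hbad
  set J : Finset ι → ℝ := fun S => (S.card : ℝ) + ∑ e ∈ P, bad e S + c * ∑ v, nw S v +
    g * ∑ e ∈ P, miss (star B e) S with hJ
  have hJc : J = cost D θ c g P B w := by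
    funext T; simp only [hJ, hbad, hnw, cost, hη]
  obtain ⟨S, hS⟩ := exists_le_ex p hp' J
  set P' := (uncov P B S).filter fun e => 1 - η ≤ left θ B w e S with hP'
  set B' : ι → Finset α := fun v => if Disjoint (near B v) S then B v ∩ P' else ∅ with hB'
  have hB'sub : ∀ v, B' v ⊆ B v := fun v => by
    simp only [hB']; split_ifs <;> simp
  have hP'sub : P' ⊆ uncov P B S := filter_subset _ _
  have hP'P : P' ⊆ P := hP'sub.trans (filter_subset _ _)
  have hst : ∀ e, star B' e ⊆ star B e := fun e u hu =>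
    mem_filter.2 ⟨mem_univ _, hB'sub u (mem_filter.1 hu).2⟩
  have hnw4 : ∀ v, 0 ≤ nw S v ∧ nw S v ≤ 4 * w v := by
    intro v
    simp only [hnw]
    split_ifs with hv
    · obtain ⟨b0, b2⟩ := boost_bounds h hθ.le (by linarith) hv
      have hm : 0 ≤ miss (near B v) S ∧ miss (near B v) S ≤ 1 := by
        simp only [miss]; split_ifs <;> norm_num
      have hd : 0 ≤ boost θ B w v / (1 - η) := div_nonneg b0 (by linarith)
      refine ⟨mul_nonneg hd hm.1, (mul_le_of_le_one_right hd hm.2).trans ?_⟩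
      rw [div_le_iff₀ (by linarith)]
      nlinarith [h.nonneg v]
    · exact ⟨le_rfl, by linarith [h.nonneg v]⟩
  refine ⟨S, P', B', nw S, ⟨fun v => (hnw4 v).1, fun v => by linarith [(hnw4 v).2, h.small v],
    fun v => (card_le_card (hB'sub v)).trans (h.size v), fun v => ?_, ?_, ?_⟩, hP'sub, hB'sub, ?_⟩
  · simp only [hB']
    split_ifs
    · exact inter_subset_right
    · exact empty_subset _
  · intro e he f hf hef
    refine (sum_le_sum fun u _ => (hnw4 u).2).trans ?_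
    rw [← mul_sum]
    refine mul_le_mul_of_nonneg_left ?_ (by norm_num)
    exact (sum_le_sum_of_subset_of_nonneg (inter_subset_inter (hst e) (hst f))
      fun u _ _ => h.nonneg u).trans (h.pair e (hP'P he) f (hP'P hf) hef)
  · intro e he
    have hl : 1 - η ≤ left θ B w e S := (mem_filter.1 he).2
    have heq : left θ B w e S / (1 - η) = ∑ v ∈ star B e, nw S v := by
      simp only [left, sum_div, hnw]
      refine sum_congr rfl fun v hv => ?_
      rw [if_pos ⟨e, (mem_filter.1 hv).2⟩]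
      ring
    have hsum : ∑ v ∈ star B e, nw S v = ∑ v ∈ star B' e, nw S v := by
      refine (sum_subset (hst e) fun v hv hv' => ?_).symm
      have : ¬Disjoint (near B v) S := fun hd => hv' (mem_filter.2 ⟨mem_univ _, by
        simp only [hB', if_pos hd]; exact mem_inter.2 ⟨(mem_filter.1 hv).2, he⟩⟩)
      simp [hnw, miss, this]
    rw [← hsum, ← heq, one_le_div (by linarith)]
    exact hl
  · have hcard1 : ((uncov P B S \ P').card : ℝ) = ∑ e ∈ P, bad e S := by
      have : uncov P B S \ P' =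
          P.filter fun e => Disjoint (star B e) S ∧ left θ B w e S < 1 - η := by
        ext e
        simp only [hP', uncov, mem_sdiff, mem_filter, not_and, not_le]
        exact ⟨fun hh => ⟨hh.1.1, hh.1.2, hh.2 hh.1⟩, fun hh => ⟨⟨hh.1, hh.2.1⟩, fun _ => hh.2.2⟩⟩
      rw [this, card_eq_sum_ones, Nat.cast_sum, sum_filter]
      refine sum_congr rfl fun e _ => ?_
      by_cases hd : Disjoint (star B e) S <;>
        by_cases hl : left θ B w e S < 1 - η <;> simp [hbad, miss, hd, hl]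
    have hcard2 : ((P'.card : ℕ) : ℝ) ≤ ∑ e ∈ P, miss (star B e) S := by
      have : ((uncov P B S).card : ℝ) = ∑ e ∈ P, miss (star B e) S := by
        simp [uncov, miss]
      rw [← this]
      exact_mod_cast card_le_card hP'sub
    have hJS : (S.card : ℝ) + ((uncov P B S \ P').card : ℝ) + c * ∑ v, nw S v +
        g * (P'.card : ℝ) ≤ J S := by
      rw [hcard1]
      simp only [hJ]
      nlinarith [mul_le_mul_of_nonneg_left hcard2 hg]
    refine hJS.trans (hS.trans ?_)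
    rw [hJc]
    exact ex_cost_le h hhi hD hθ hθD hκ hκθ hκD c g hc hg

/-- For any number of bites, a cover by blocks with few uncovered points. -/
theorem bites (D : ℕ) (hD : 1 ≤ D) (θ : ℝ) (hθ : 0 < θ) (hθD : 10 * (D : ℝ) ^ 2 * θ ≤ 1)
    (γ : ℝ) (hγ : 0 < γ) (k : ℕ) :
    ∃ κ₀ : ℝ, 0 < κ₀ ∧ ∀ {α ι : Type} [DecidableEq α] [Fintype ι] [DecidableEq ι]
      (P : Finset α) (B : ι → Finset α) (w : ι → ℝ) (κ : ℝ),
      0 < κ → κ ≤ κ₀ → Sparse D κ P B w →
      ∃ C : Finset ι, (C.card : ℝ) + ((uncov P B C).card : ℝ) ≤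
        1 / (1 - 5 * (D : ℝ) ^ 2 * θ) * ∑ v, w v + ((1 / (1 + θ)) ^ k + γ) * (P.card : ℝ) := by
  classical
  have hu : 0 < 1 - 5 * (D : ℝ) ^ 2 * θ := by linarith
  set c := 1 / (1 - 5 * (D : ℝ) ^ 2 * θ) with hc
  have hc0 : 0 < c := by positivity
  have hDR : (1 : ℝ) ≤ D := by exact_mod_cast hD
  induction k with
  | zero =>
    refine ⟨1, one_pos, fun {_ _ _ _ _} P B w κ _ _ h => ⟨∅, ?_⟩⟩
    have h1 : 0 ≤ c * ∑ v, w v := mul_nonneg hc0.le (sum_nonneg fun v _ => h.nonneg v)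
    have h2 : 0 ≤ γ * (P.card : ℝ) := mul_nonneg hγ.le (Nat.cast_nonneg _)
    simp only [uncov, disjoint_empty_right, filter_true, card_empty, Nat.cast_zero, pow_zero]
    linarith
  | succ k ih =>
    obtain ⟨κ₁, hκ₁, ih⟩ := ih
    refine ⟨min (min (κ₁ / 4) (γ * θ ^ 5 / (48 * (1 + θ))))
      (min ((D : ℝ) ^ 2 * θ ^ 2) (θ / (D : ℝ) ^ 2)), by positivity, fun {_ _ _ _ _} P B w κ hκ hκle h => ?_⟩
    simp only [le_min_iff] at hκle
    obtain ⟨⟨hκa, hκb⟩, hκc, hκd⟩ := hκle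
    rw [le_div_iff₀ (by positivity)] at hκd
    obtain ⟨B₁, hsub₁, h₁, hhi⟩ := trim h
    set g := (1 / (1 + θ)) ^ k + γ with hg
    obtain ⟨S, P', B', w', h', hP', hB', hle⟩ :=
      bite h₁ hhi hD hθ hθD hκ hκc (by linarith) c g hc0.le (by positivity)
    obtain ⟨C', hC'⟩ := ih P' B' w' (4 * κ) (by linarith) (by linarith) h'
    refine ⟨S ∪ C', ?_⟩
    have hsub : uncov P B (S ∪ C') ⊆ (uncov P B₁ S \ P') ∪ uncov P' B' C' := by
      intro e he
      simp only [uncov, mem_filter, disjoint_union_right] at he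
      obtain ⟨heP, hS', hC''⟩ := he
      have hs1 : star B₁ e ⊆ star B e := fun u hu' =>
        mem_filter.2 ⟨mem_univ _, hsub₁ u (mem_filter.1 hu').2⟩
      have hs' : star B' e ⊆ star B₁ e := fun u hu' =>
        mem_filter.2 ⟨mem_univ _, hB' u (mem_filter.1 hu').2⟩
      by_cases hp : e ∈ P'
      · exact mem_union_right _ (mem_filter.2 ⟨hp, hC''.mono_left (hs'.trans hs1)⟩)
      · exact mem_union_left _
          (mem_sdiff.2 ⟨mem_filter.2 ⟨heP, hS'.mono_left hs1⟩, hp⟩)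
    have e1 : ((uncov P B (S ∪ C')).card : ℝ) ≤
        ((uncov P B₁ S \ P').card : ℝ) + ((uncov P' B' C').card : ℝ) := by
      exact_mod_cast (card_le_card hsub).trans (card_union_le _ _)
    have e2 : ((S ∪ C').card : ℝ) ≤ (S.card : ℝ) + (C'.card : ℝ) := by
      exact_mod_cast card_union_le _ _
    have e3 : θ + c * (1 - θ * (1 - 5 * (D : ℝ) ^ 2 * θ)) = c := by
      have h1 : c * (1 - 5 * (D : ℝ) ^ 2 * θ) = 1 := by rw [hc]; field_simp
      linear_combination (-θ) * h1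
    have e4 : 48 * κ / θ ^ 4 + g / (1 + θ) ≤ (1 / (1 + θ)) ^ (k + 1) + γ := by
      rw [le_div_iff₀ (by positivity)] at hκb
      have : 48 * κ / θ ^ 4 + γ / (1 + θ) ≤ γ := by
        rw [div_add_div _ _ (by positivity) (by positivity), div_le_iff₀ (by positivity)]
        nlinarith
      rw [hg, add_div, pow_succ (1 / (1 + θ)), mul_one_div]
      linarith
    have e5 : θ * ∑ v, w v + c * ((1 - θ * (1 - 5 * (D : ℝ) ^ 2 * θ)) * ∑ v, w v) =
        c * ∑ v, w v := by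
      calc _ = (θ + c * (1 - θ * (1 - 5 * (D : ℝ) ^ 2 * θ))) * ∑ v, w v := by ring
        _ = _ := by rw [e3]
    have e6 := mul_le_mul_of_nonneg_right e4 (Nat.cast_nonneg (α := ℝ) P.card)
    linarith

end Vale.Agent.P045.Spread
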