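import Vale.Agent.P045.Spread.Frac
import Vale.Agent.P045.Spread.Nibble

/-!
Ryser's inequality for hypergraphs of bounded degree and large uniformity in which two edges
share only a small fraction of their vertices.
-/

namespace Vale.Agent.P045.Spread

open Finset

theorem final_arith {r D δ ε : ℝ} {nu : ℝ} {x : ℝ} (hr : 1 ≤ r) (hD : 1 ≤ D) (hδ : 0 < δ)
    (hδε : δ ≤ ε) (hδD : δ ≤ 1 / (2 * D)) (h2D : 2 * D ≤ r) (hrδ : 2 / δ ≤ r) (hnu : 0 ≤ nu)
    (hx : x ≤ (1 + δ / 2) * ((r - (r - 1) / D) * nu)) :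
    x ≤ (r - 1) * nu ∧ x ≤ (1 - 1 / D + ε) * r * nu := by
  have h1 : (r - 1) / D = r * (1 / D) - 1 / D := by ring
  have h2 : 1 / D ≤ 1 := by rw [div_le_one (by linarith)]; exact hD
  have h3 : 1 ≤ δ / 2 * r := by rw [div_le_iff₀ hδ] at hrδ; linarith
  have h4 : 0 ≤ (r - 1) / D := div_nonneg (by linarith) (by linarith)
  have h5 : (1 + δ / 2) * (r - (r - 1) / D) ≤ (1 - 1 / D + δ) * r := by
    rw [h1] at h4 ⊢
    nlinarith [mul_nonneg hδ.le h4]
  have hbound : x ≤ (1 - 1 / D + δ) * r * nu := by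
    refine hx.trans ?_
    rw [← mul_assoc]
    exact mul_le_mul_of_nonneg_right h5 hnu
  have h6 : (1 - 1 / D + δ) * r ≤ r - 1 := by
    have h7 : 1 ≤ r * (1 / (2 * D)) := by
      rw [mul_one_div, one_le_div (by linarith)]; linarith
    have h8 : 1 / D = 2 * (1 / (2 * D)) := by field_simp
    nlinarith [mul_le_mul_of_nonneg_left hδD (by linarith : 0 ≤ r)]
  refine ⟨hbound.trans (mul_le_mul_of_nonneg_right h6 hnu), hbound.trans ?_⟩
  exact mul_le_mul_of_nonneg_right (mul_le_mul_of_nonneg_right (by linarith) (by linarith)) hnu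

theorem card_le_weight {V : Type} [Fintype V] [DecidableEq V] (H : Finset (Finset V)) (D : ℕ)
    (w : V → ℝ) (hw : ∀ v, 0 ≤ w v) (hcov : ∀ e ∈ H, 1 ≤ ∑ v ∈ e, w v)
    (hd : ∀ v, (H.filter fun e => v ∈ e).card ≤ D) : (H.card : ℝ) ≤ D * ∑ v, w v := by
  calc (H.card : ℝ) = ∑ e ∈ H, (1 : ℝ) := by simp
    _ ≤ ∑ e ∈ H, ∑ v ∈ e, w v := sum_le_sum hcov
    _ = ∑ v, ((H.filter fun e => v ∈ e).card : ℝ) * w v := by
      simp only [← nsmul_eq_mul, ← sum_const, sum_filter]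
      rw [sum_comm]
      refine sum_congr rfl fun e _ => ?_
      rw [← sum_filter, filter_mem_eq_inter, univ_inter]
    _ ≤ _ := by
      rw [mul_sum]
      exact sum_le_sum fun v _ =>
        mul_le_mul_of_nonneg_right (by exact_mod_cast hd v) (hw v)

/-- For each `D` and `ε > 0`, an `r`-uniform hypergraph (`r` large) of maximum degree at most `D`
with pairwise intersections at most `η * r` has a cover of size at most `(r - 1) * nu` and at most
`(1 - 1 / D + ε) * r * nu`. -/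
theorem cover_spread (D : ℕ) (ε : ℝ) (hε : 0 < ε) :
    ∃ (r₀ : ℕ) (η : ℝ), 0 < η ∧ ∀ (r nu : ℕ), r₀ ≤ r →
      ∀ (V : Type) [Fintype V] [DecidableEq V] (H : Finset (Finset V)),
        (∀ e ∈ H, e.card = r) →
        (∀ v, (H.filter fun e => v ∈ e).card ≤ D) →
        (∀ e ∈ H, ∀ f ∈ H, e ≠ f → ((e ∩ f).card : ℝ) ≤ η * r) →
        (∀ M ⊆ H, (M : Set (Finset V)).PairwiseDisjoint id → M.card ≤ nu) →
        ∃ C : Finset V, (∀ e ∈ H, ∃ v ∈ C, v ∈ e) ∧ C.card ≤ (r - 1) * nu ∧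
          (C.card : ℝ) ≤ (1 - 1 / D + ε) * r * nu := by
  classical
  rcases Nat.eq_zero_or_pos D with rfl | hD
  · refine ⟨1, 1, one_pos, fun r nu hr V _ _ H hu hd _ _ => ⟨∅, fun e he => ?_, by simp, ?_⟩⟩
    · obtain ⟨v, hv⟩ := card_pos.1 (by rw [hu e he]; omega)
      have := hd v
      have : 0 < (H.filter fun e => v ∈ e).card := card_pos.2 ⟨e, mem_filter.2 ⟨he, hv⟩⟩
      omega
    · simp only [card_empty, Nat.cast_zero, div_zero, sub_zero]
      positivity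
  have hDR : (1 : ℝ) ≤ D := by exact_mod_cast hD
  obtain ⟨δ, hδ0, hδε, hδD, hδ1⟩ :
      ∃ δ : ℝ, 0 < δ ∧ δ ≤ ε ∧ δ ≤ 1 / (2 * D) ∧ δ ≤ 1 :=
    ⟨min (min ε (1 / (2 * D))) 1, by positivity, (min_le_left _ _).trans (min_le_left _ _),
      (min_le_left _ _).trans (min_le_right _ _), min_le_right _ _⟩
  obtain ⟨θ, hθ, hθeq⟩ : ∃ θ : ℝ, 0 < θ ∧ 5 * (D : ℝ) ^ 2 * θ = δ / 8 :=
    ⟨δ / (40 * (D : ℝ) ^ 2), by positivity, by field_simp; norm_num⟩
  obtain ⟨γ, hγ, hγeq⟩ : ∃ γ : ℝ, 0 < γ ∧ 2 * γ * D = δ / 4 :=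
    ⟨δ / (8 * D), by positivity, by field_simp; norm_num⟩
  obtain ⟨k, hk⟩ := exists_pow_lt_of_lt_one hγ
    (show (1 : ℝ) / (1 + θ) < 1 by rw [div_lt_one (by linarith)]; linarith)
  obtain ⟨κ₀, hκ₀, hbites⟩ := bites D hD θ hθ (by linarith) γ hγ k
  obtain ⟨r₀, hr₀⟩ := exists_nat_ge ((D : ℝ) / κ₀ + 2 / δ + 2 * D + 1)
  refine ⟨r₀, κ₀ / D, by positivity, fun r nu hr V _ _ H hu hd hint hnu => ?_⟩
  have hrR : (D : ℝ) / κ₀ + 2 / δ + 2 * D + 1 ≤ r := hr₀.trans (by exact_mod_cast hr)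
  have hDk : (0 : ℝ) ≤ D / κ₀ := by positivity
  have h2δ : (0 : ℝ) ≤ 2 / δ := by positivity
  have hr1 : (1 : ℝ) ≤ r := by linarith
  have hr1' : 1 ≤ r := by exact_mod_cast hr1
  have hsmall : (D : ℝ) / r ≤ κ₀ := by
    rw [div_le_iff₀ (by linarith)]
    have : (D : ℝ) / κ₀ ≤ r := by linarith
    rw [div_le_iff₀ hκ₀] at this
    linarith
  obtain ⟨w, hw, hcov, hW⟩ := exists_small_weights r nu D hr1' hD H hu hd hnu
  set B : V → Finset (Finset V) := fun v => H.filter fun e => v ∈ e with hB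
  have hstar : ∀ e ∈ H, star B e = e := by
    intro e he; ext v; simp [star, hB, he]
  have hS : Sparse D κ₀ H B w := by
    refine ⟨fun v => (hw v).1, fun v => (hw v).2.trans hsmall, hd, fun v => filter_subset _ _,
      fun e he f hf hef => ?_, fun e he => by rw [hstar e he]; exact hcov e he⟩
    rw [hstar e he, hstar f hf]
    calc ∑ v ∈ e ∩ f, w v ≤ ∑ v ∈ e ∩ f, (D : ℝ) / r := sum_le_sum fun v _ => (hw v).2
      _ = ((e ∩ f).card : ℝ) * ((D : ℝ) / r) := by rw [sum_const, nsmul_eq_mul]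
      _ ≤ κ₀ / D * r * ((D : ℝ) / r) :=
        mul_le_mul_of_nonneg_right (hint e he f hf hef) (by positivity)
      _ = κ₀ := by field_simp
  obtain ⟨C, hC⟩ := hbites H B w κ₀ hκ₀ le_rfl hS
  obtain ⟨g, hg⟩ : ∃ g : {e // e ∈ H} → V, ∀ e, g e ∈ e.1 :=
    ⟨fun e => (card_pos.1 (by rw [hu e.1 e.2]; omega) : e.1.Nonempty).choose,
      fun e => (card_pos.1 (by rw [hu e.1 e.2]; omega) : e.1.Nonempty).choose_spec⟩
  set U := (uncov H B C).attach.image fun e => g ⟨e.1, filter_subset _ _ e.2⟩ with hU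
  refine ⟨C ∪ U, fun e he => ?_, ?_⟩
  · by_cases h : Disjoint (star B e) C
    · exact ⟨_, mem_union_right _ (mem_image.2 ⟨⟨e, mem_filter.2 ⟨he, h⟩⟩, mem_attach _ _, rfl⟩),
        hg _⟩
    · rw [hstar e he, not_disjoint_iff] at h
      obtain ⟨v, hv, hvC⟩ := h
      exact ⟨v, mem_union_left _ hvC, hv⟩
  have hcard : ((C ∪ U).card : ℝ) ≤ (C.card : ℝ) + ((uncov H B C).card : ℝ) := by
    have : U.card ≤ (uncov H B C).card := card_image_le.trans (card_attach.le)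
    exact_mod_cast (card_union_le C U).trans (Nat.add_le_add_left this _)
  have hHW := card_le_weight H D w (fun v => (hw v).1) hcov hd
  have hW0 : 0 ≤ ∑ v, w v := sum_nonneg fun v _ => (hw v).1
  have hc : 1 / (1 - 5 * (D : ℝ) ^ 2 * θ) ≤ 1 + δ / 4 := by
    rw [hθeq, div_le_iff₀ (by linarith)]
    nlinarith
  have hmain : ((C ∪ U).card : ℝ) ≤ (1 + δ / 2) * ∑ v, w v := by
    have h1 : ((1 / (1 + θ)) ^ k + γ) * (H.card : ℝ) ≤ 2 * γ * (D * ∑ v, w v) :=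
      mul_le_mul (by linarith) hHW (Nat.cast_nonneg _) (by linarith)
    have h2 : 2 * γ * (D * ∑ v, w v) = δ / 4 * ∑ v, w v := by rw [← hγeq]; ring
    nlinarith [mul_le_mul_of_nonneg_right hc hW0]
  obtain ⟨hA, hB'⟩ := final_arith hr1 hDR hδ0 hδε hδD (by linarith) (by linarith)
    (Nat.cast_nonneg nu) (hmain.trans (mul_le_mul_of_nonneg_left hW (by linarith)))
  refine ⟨?_, hB'⟩
  have h5 : (((r - 1) * nu : ℕ) : ℝ) = ((r : ℝ) - 1) * nu := by
    rw [Nat.cast_mul, Nat.cast_sub hr1', Nat.cast_one]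
  exact_mod_cast hA.trans_eq h5.symm

end Vale.Agent.P045.Spread
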