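import Mathlib

/-!
Expectations over a random subset of a finite type (independent inclusion), as finite sums.
-/

namespace Vale.Agent.P045.Spread

open Finset

variable {ι : Type*} [Fintype ι] [DecidableEq ι]

/-- Expectation of `f` over the random subset containing `v` with probability `p v`,
independently. -/
def ex (p : ι → ℝ) (f : Finset ι → ℝ) : ℝ :=
  ∑ S ∈ univ.powerset, ((∏ v ∈ S, p v) * ∏ v ∈ univ \ S, (1 - p v)) * f S

/-- Indicator of the random subset missing `A`. -/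
def miss (A S : Finset ι) : ℝ := if Disjoint A S then 1 else 0

omit [Fintype ι] in
theorem miss_mul (A B S : Finset ι) : miss A S * miss B S = miss (A ∪ B) S := by
  simp only [miss, disjoint_union_left]
  split_ifs <;> simp_all

omit [Fintype ι] in
theorem miss_mul_of_subset {A B : Finset ι} (h : A ⊆ B) (S : Finset ι) :
    miss A S * miss B S = miss B S := by
  rw [miss_mul, union_eq_right.2 h]

theorem ex_miss (p : ι → ℝ) (A : Finset ι) : ex p (miss A) = ∏ v ∈ A, (1 - p v) := by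
  simp only [ex, miss, mul_ite, mul_one, mul_zero, ← sum_filter]
  have h : univ.powerset.filter (fun S => Disjoint A S) = (univ \ A).powerset := by
    ext S
    simp [subset_sdiff, disjoint_comm]
  rw [h]
  have hterm : ∀ S ∈ (univ \ A).powerset,
      (∏ v ∈ S, p v) * ∏ v ∈ univ \ S, (1 - p v) =
      ((∏ v ∈ S, p v) * ∏ v ∈ (univ \ A) \ S, (1 - p v)) * ∏ v ∈ A, (1 - p v) := by
    intro S hS
    have hd : Disjoint S A := (subset_sdiff.1 (mem_powerset.1 hS)).2
    have hA : A ⊆ univ \ S := by simp [subset_sdiff, hd.symm]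
    rw [mul_assoc, sdiff_right_comm, prod_sdiff hA]
  rw [sum_congr rfl hterm, ← sum_mul, ← prod_add]
  simp

theorem ex_const (p : ι → ℝ) (c : ℝ) : ex p (fun _ => c) = c := by
  have h := ex_miss p ∅
  simp only [ex, miss, disjoint_empty_left, if_true, mul_one, prod_empty] at h
  simp only [ex, ← sum_mul, h, one_mul]

theorem ex_add (p : ι → ℝ) (f g : Finset ι → ℝ) :
    ex p (fun S => f S + g S) = ex p f + ex p g := by
  simp only [ex, mul_add, sum_add_distrib]

theorem ex_smul (p : ι → ℝ) (c : ℝ) (f : Finset ι → ℝ) :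
    ex p (fun S => c * f S) = c * ex p f := by
  simp only [ex, mul_sum]
  exact sum_congr rfl fun S _ => by ring

theorem ex_sum {κ : Type*} (p : ι → ℝ) (s : Finset κ) (f : κ → Finset ι → ℝ) :
    ex p (fun S => ∑ k ∈ s, f k S) = ∑ k ∈ s, ex p (f k) := by
  simp only [ex, mul_sum]
  rw [sum_comm]

theorem ex_mono (p : ι → ℝ) (hp : ∀ v, 0 ≤ p v ∧ p v ≤ 1) {f g : Finset ι → ℝ}
    (h : ∀ S, f S ≤ g S) : ex p f ≤ ex p g :=
  sum_le_sum fun S _ => mul_le_mul_of_nonneg_left (h S)
    (mul_nonneg (prod_nonneg fun v _ => (hp v).1)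
      (prod_nonneg fun v _ => sub_nonneg.2 (hp v).2))

theorem exists_le_ex (p : ι → ℝ) (hp : ∀ v, 0 ≤ p v ∧ p v ≤ 1) (f : Finset ι → ℝ) :
    ∃ S, f S ≤ ex p f := by
  obtain ⟨S, _, hS⟩ := exists_min_image (univ : Finset (Finset ι)) f univ_nonempty
  exact ⟨S, (ex_const p (f S)).symm.trans_le (ex_mono p hp fun T => hS T (mem_univ T))⟩

theorem ex_card (p : ι → ℝ) : ex p (fun S => (S.card : ℝ)) = ∑ v, p v := by
  have h : ∀ S : Finset ι, (S.card : ℝ) = ∑ v : ι, (1 + -1 * miss {v} S) := by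
    intro S
    have : ∀ v : ι, (1 + -1 * miss {v} S) = if v ∈ S then 1 else 0 := by
      intro v; simp only [miss, disjoint_singleton_left]; split_ifs <;> norm_num
    simp only [this]
    simp
  simp only [h]
  rw [ex_sum]
  refine sum_congr rfl fun v _ => ?_
  rw [ex_add, ex_const, ex_smul, ex_miss]
  simp

omit [Fintype ι] in
theorem one_sub_sum_le_prod {p : ι → ℝ} (s : Finset ι) (h : ∀ v ∈ s, 0 ≤ p v ∧ p v ≤ 1) :
    1 - ∑ v ∈ s, p v ≤ ∏ v ∈ s, (1 - p v) := by
  induction s using Finset.induction_on with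
  | empty => simp
  | @insert a s ha ih =>
    rw [sum_insert ha, prod_insert ha]
    have h0 := h a (mem_insert_self _ _)
    have h1 := ih fun v hv => h v (mem_insert_of_mem hv)
    nlinarith [mul_le_mul_of_nonneg_left h1 (sub_nonneg.2 h0.2),
      sum_nonneg fun v hv => (h v (mem_insert_of_mem hv)).1]

omit [Fintype ι] in
theorem prod_mul_one_add_sum_le {p : ι → ℝ} (s : Finset ι) (h : ∀ v ∈ s, 0 ≤ p v ∧ p v ≤ 1) :
    (∏ v ∈ s, (1 - p v)) * (1 + ∑ v ∈ s, p v) ≤ 1 := by
  induction s using Finset.induction_on with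
  | empty => simp
  | @insert a s ha ih =>
    rw [sum_insert ha, prod_insert ha]
    have h0 := h a (mem_insert_self _ _)
    have h1 := ih fun v hv => h v (mem_insert_of_mem hv)
    have hP : 0 ≤ ∏ v ∈ s, (1 - p v) :=
      prod_nonneg fun v hv => sub_nonneg.2 (h v (mem_insert_of_mem hv)).2
    have hS : 0 ≤ ∑ v ∈ s, p v := sum_nonneg fun v hv => (h v (mem_insert_of_mem hv)).1
    nlinarith [mul_nonneg (mul_nonneg hP h0.1) hS, mul_nonneg hP (mul_self_nonneg (p a))]

omit [Fintype ι] in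
theorem sum_biUnion_le_sum {κ : Type*} [DecidableEq κ] (w : ι → ℝ) (hw : ∀ v, 0 ≤ w v)
    (s : Finset κ) (g : κ → Finset ι) :
    ∑ u ∈ s.biUnion g, w u ≤ ∑ f ∈ s, ∑ u ∈ g f, w u := by
  induction s using Finset.induction_on with
  | empty => simp
  | @insert a s ha ih =>
    rw [biUnion_insert, sum_insert ha]
    have := sum_union_inter (s₁ := g a) (s₂ := s.biUnion g) (f := w)
    have h0 : 0 ≤ ∑ u ∈ g a ∩ s.biUnion g, w u := sum_nonneg fun u _ => hw u
    linarith

omit [Fintype ι] in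
theorem sum_le_sum_biUnion {κ : Type*} [DecidableEq κ] (w : ι → ℝ) (hw : ∀ v, 0 ≤ w v)
    (s : Finset κ) (g : κ → Finset ι) (δ : ℝ) (hδ : 0 ≤ δ)
    (hg : ∀ f ∈ s, ∀ f' ∈ s, f ≠ f' → ∑ u ∈ g f ∩ g f', w u ≤ δ) :
    ∑ f ∈ s, ∑ u ∈ g f, w u ≤ ∑ u ∈ s.biUnion g, w u + (s.card : ℝ) ^ 2 * δ := by
  induction s using Finset.induction_on with
  | empty => simp
  | @insert a s ha ih =>
    rw [biUnion_insert, sum_insert ha, card_insert_of_notMem ha]
    have h1 := ih fun f hf f' hf' => hg f (mem_insert_of_mem hf) f' (mem_insert_of_mem hf')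
    have h2 := sum_union_inter (s₁ := g a) (s₂ := s.biUnion g) (f := w)
    have h3 : ∑ u ∈ g a ∩ s.biUnion g, w u ≤ (s.card : ℝ) * δ := by
      rw [inter_biUnion]
      refine (sum_biUnion_le_sum w hw _ _).trans ?_
      rw [← nsmul_eq_mul]
      exact sum_le_card_nsmul _ _ _ fun f hf =>
        hg a (mem_insert_self _ _) f (mem_insert_of_mem hf) fun h => ha (h ▸ hf)
    push_cast
    nlinarith [mul_nonneg (Nat.cast_nonneg (α := ℝ) s.card) hδ]

end Vale.Agent.P045.Spread
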