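import Vale.Agent.P045.Spread.Prob

/-!
One bite of the weighted nibble for covering points by blocks of bounded size.
-/

namespace Vale.Agent.P045.Spread

open Finset

variable {α ι : Type*} [DecidableEq α] [Fintype ι] [DecidableEq ι]

/-- The blocks through a point. -/
def star (B : ι → Finset α) (e : α) : Finset ι := univ.filter fun v => e ∈ B v

/-- The blocks meeting a block. -/
def near (B : ι → Finset α) (v : ι) : Finset ι := (B v).biUnion (star B)

/-- Points `P`, blocks `B` of size at most `D` inside `P`, weights at most `κ` covering every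
point, and pairs of points sharing weight at most `κ`. -/
structure Sparse (D : ℕ) (κ : ℝ) (P : Finset α) (B : ι → Finset α) (w : ι → ℝ) : Prop where
  nonneg : ∀ v, 0 ≤ w v
  small : ∀ v, w v ≤ κ
  size : ∀ v, (B v).card ≤ D
  inside : ∀ v, B v ⊆ P
  pair : ∀ e ∈ P, ∀ f ∈ P, e ≠ f → ∑ u ∈ star B e ∩ star B f, w u ≤ κ
  cover : ∀ e ∈ P, 1 ≤ ∑ u ∈ star B e, w u

variable {D : ℕ} {κ θ : ℝ} {P : Finset α} {B : ι → Finset α} {w : ι → ℝ}

/-- Points can be removed from blocks so that every point has covering weight at most `1 + κ`. -/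
theorem trim (h : Sparse D κ P B w) :
    ∃ B' : ι → Finset α, (∀ v, B' v ⊆ B v) ∧ Sparse D κ P B' w ∧
      ∀ e ∈ P, ∑ u ∈ star B' e, w u ≤ 1 + κ := by
  classical
  have hex : ∀ e, ∃ S : Finset ι, S ⊆ star B e ∧
      (e ∈ P → 1 ≤ ∑ u ∈ S, w u ∧ ∑ u ∈ S, w u ≤ 1 + κ) := by
    intro e
    by_cases he : e ∈ P
    · have hne : ((star B e).powerset.filter fun S => 1 ≤ ∑ u ∈ S, w u).Nonempty :=
        ⟨star B e, by simpa using h.cover e he⟩
      obtain ⟨S, hS, hmin⟩ := exists_min_image _ Finset.card hne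
      rw [mem_filter, mem_powerset] at hS
      refine ⟨S, hS.1, fun _ => ⟨hS.2, ?_⟩⟩
      obtain ⟨u, hu⟩ : S.Nonempty := by
        rw [nonempty_iff_ne_empty]; rintro rfl; simp at hS; linarith
      by_contra hcon
      push Not at hcon
      have h2 : S.erase u ∈ (star B e).powerset.filter fun S => 1 ≤ ∑ u ∈ S, w u := by
        rw [mem_filter, mem_powerset]
        exact ⟨(erase_subset _ _).trans hS.1, by
          linarith [add_sum_erase S w hu, h.small u]⟩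
      have := hmin _ h2
      rw [card_erase_of_mem hu] at this
      have := card_pos.2 ⟨u, hu⟩
      omega
    · exact ⟨∅, empty_subset _, fun h => absurd h he⟩
  choose S hS hS' using hex
  refine ⟨fun v => (B v).filter fun e => v ∈ S e, fun v => filter_subset _ _, ?_⟩
  have hst : ∀ e, star (fun v => (B v).filter fun e => v ∈ S e) e = S e := by
    intro e; ext v
    simp only [star, mem_filter, mem_univ, true_and]
    exact ⟨fun h => h.2, fun h => ⟨(mem_filter.1 (hS e h)).2, h⟩⟩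
  refine ⟨⟨h.nonneg, h.small, fun v => (card_le_card (filter_subset _ _)).trans (h.size v),
    fun v => (filter_subset _ _).trans (h.inside v), fun e he f hf hef => ?_, fun e he => ?_⟩,
    fun e he => ?_⟩
  · rw [hst, hst]
    exact (sum_le_sum_of_subset_of_nonneg (inter_subset_inter (hS e) (hS f))
      fun u _ _ => h.nonneg u).trans (h.pair e he f hf hef)
  · rw [hst]; exact (hS' e he).1
  · rw [hst]; exact (hS' e he).2

/-- The boosted weight of a block. -/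
def boost (θ : ℝ) (B : ι → Finset α) (w : ι → ℝ) (v : ι) : ℝ :=
  w v * (1 + θ * (((B v).card : ℝ) - 1))

/-- The weight left at a point after the random bite `S`. -/
def left (θ : ℝ) (B : ι → Finset α) (w : ι → ℝ) (e : α) (S : Finset ι) : ℝ :=
  ∑ v ∈ star B e, boost θ B w v * miss (near B v) S

theorem star_subset_near {v : ι} {e : α} (hv : v ∈ star B e) : star B e ⊆ near B v :=
  subset_biUnion_of_mem (star B) (mem_filter.1 hv).2

theorem near_le_prod (h : Sparse D κ P B w) (hhi : ∀ e ∈ P, ∑ u ∈ star B e, w u ≤ 1 + κ)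
    (hθ : 0 ≤ θ) (hp : ∀ u, θ * w u ≤ 1) {v : ι} {e : α} (hv : v ∈ star B e) :
    (∏ u ∈ star B e, (1 - θ * w u)) * (1 - θ * (1 + κ) * (((B v).card : ℝ) - 1)) ≤
      ∏ u ∈ near B v, (1 - θ * w u) := by
  classical
  have hev : e ∈ B v := (mem_filter.1 hv).2
  have hp' : ∀ u, 0 ≤ θ * w u ∧ θ * w u ≤ 1 := fun u => ⟨mul_nonneg hθ (h.nonneg u), hp u⟩
  rw [← prod_sdiff (star_subset_near hv), mul_comm]
  refine mul_le_mul_of_nonneg_right ?_ (prod_nonneg fun u _ => sub_nonneg.2 (hp u))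
  refine le_trans ?_ (one_sub_sum_le_prod _ fun u _ => hp' u)
  have hsub : near B v \ star B e ⊆ ((B v).erase e).biUnion (star B) := by
    intro u hu
    obtain ⟨h1, h2⟩ := mem_sdiff.1 hu
    obtain ⟨f, hf, hu'⟩ := mem_biUnion.1 h1
    exact mem_biUnion.2 ⟨f, mem_erase.2 ⟨fun hfe => h2 (hfe ▸ hu'), hf⟩, hu'⟩
  have hsum : ∑ u ∈ near B v \ star B e, w u ≤ (((B v).card : ℝ) - 1) * (1 + κ) := by
    refine (sum_le_sum_of_subset_of_nonneg hsub fun u _ _ => h.nonneg u).trans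
      ((sum_biUnion_le_sum w h.nonneg _ _).trans ?_)
    refine (sum_le_card_nsmul _ _ (1 + κ) fun f hf =>
      hhi f (h.inside v (mem_of_mem_erase hf))).trans_eq ?_
    rw [nsmul_eq_mul, card_erase_of_mem hev, Nat.cast_sub (card_pos.2 ⟨e, hev⟩)]
    simp
  rw [← mul_sum]
  nlinarith [mul_le_mul_of_nonneg_left hsum hθ]

theorem near_union_le (h : Sparse D κ P B w) (hθ : 0 ≤ θ) (hp : ∀ u, θ * w u ≤ 1) (hκ : 0 ≤ κ)
    {v v' : ι} {e : α} (hv : v ∈ star B e) (hv' : v' ∈ star B e)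
    (hsep : ∀ f ∈ (B v).erase e, f ∉ B v') :
    (∏ u ∈ near B v ∪ near B v', (1 - θ * w u)) *
      ((∏ u ∈ star B e, (1 - θ * w u)) * (1 - θ * ((D : ℝ) ^ 2 * κ))) ≤
      (∏ u ∈ near B v, (1 - θ * w u)) * ∏ u ∈ near B v', (1 - θ * w u) := by
  classical
  rw [← prod_union_inter]
  refine mul_le_mul_of_nonneg_left ?_ (prod_nonneg fun u _ => sub_nonneg.2 (hp u))
  have hs : star B e ⊆ near B v ∩ near B v' :=
    subset_inter (star_subset_near hv) (star_subset_near hv')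
  rw [← prod_sdiff hs, mul_comm]
  refine mul_le_mul_of_nonneg_right ?_ (prod_nonneg fun u _ => sub_nonneg.2 (hp u))
  refine le_trans ?_ (one_sub_sum_le_prod _ fun u _ => ⟨mul_nonneg hθ (h.nonneg u), hp u⟩)
  rw [← mul_sum]
  have hsub : (near B v ∩ near B v') \ star B e ⊆
      (((B v).erase e) ×ˢ ((B v').erase e)).biUnion fun x => star B x.1 ∩ star B x.2 := by
    intro u hu
    simp only [mem_sdiff, mem_inter, near, mem_biUnion] at hu
    obtain ⟨⟨⟨f, hf, hfu⟩, f', hf', hfu'⟩, hue⟩ := hu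
    refine mem_biUnion.2 ⟨(f, f'), mem_product.2
      ⟨mem_erase.2 ⟨fun hh => hue (hh ▸ hfu), hf⟩, mem_erase.2 ⟨fun hh => hue (hh ▸ hfu'), hf'⟩⟩,
      mem_inter.2 ⟨hfu, hfu'⟩⟩
  have hsum : ∑ u ∈ (near B v ∩ near B v') \ star B e, w u ≤ (D : ℝ) ^ 2 * κ := by
    refine (sum_le_sum_of_subset_of_nonneg hsub fun u _ _ => h.nonneg u).trans
      ((sum_biUnion_le_sum w h.nonneg _ _).trans ?_)
    refine (sum_le_card_nsmul _ _ κ fun x hx => ?_).trans ?_
    · obtain ⟨h1, h2⟩ := mem_product.1 hx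
      exact h.pair _ (h.inside v (mem_of_mem_erase h1)) _ (h.inside v' (mem_of_mem_erase h2))
        fun hh => hsep _ h1 (hh ▸ mem_of_mem_erase h2)
    · rw [nsmul_eq_mul]
      refine mul_le_mul_of_nonneg_right ?_ hκ
      rw [card_product, sq]
      push_cast
      exact mul_le_mul (by exact_mod_cast (card_erase_le).trans (h.size v))
        (by exact_mod_cast (card_erase_le).trans (h.size v')) (Nat.cast_nonneg _)
        (Nat.cast_nonneg _)
  nlinarith [mul_le_mul_of_nonneg_left hsum hθ]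

theorem left_mean (θ : ℝ) (B : ι → Finset α) (w : ι → ℝ) (e : α) :
    ex (fun u => θ * w u) (left θ B w e) =
      ∑ v ∈ star B e, boost θ B w v * ∏ u ∈ near B v, (1 - θ * w u) := by
  unfold left
  simp only [ex_sum, ex_smul, ex_miss]

theorem near_le_star (h : Sparse D κ P B w) (hθ : 0 ≤ θ) (hp : ∀ u, θ * w u ≤ 1) {v : ι} {e : α}
    (hv : v ∈ star B e) :
    ∏ u ∈ near B v, (1 - θ * w u) ≤ ∏ u ∈ star B e, (1 - θ * w u) := by
  rw [← prod_sdiff (star_subset_near hv)]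
  exact mul_le_of_le_one_left (prod_nonneg fun u _ => sub_nonneg.2 (hp u))
    (prod_le_one (fun u _ => sub_nonneg.2 (hp u))
      fun u _ => by linarith [mul_nonneg hθ (h.nonneg u)])

theorem boost_bounds (h : Sparse D κ P B w) (hθ : 0 ≤ θ) (hθD : θ * D ≤ 1) {v : ι}
    (hv : (B v).Nonempty) : 0 ≤ boost θ B w v ∧ boost θ B w v ≤ 2 * w v := by
  have h1 : (1 : ℝ) ≤ (B v).card := by exact_mod_cast card_pos.2 hv
  have h2 : ((B v).card : ℝ) ≤ D := by exact_mod_cast h.size v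
  have h3 : 0 ≤ θ * (((B v).card : ℝ) - 1) := mul_nonneg hθ (by linarith)
  have h4 : θ * (((B v).card : ℝ) - 1) ≤ θ * D := mul_le_mul_of_nonneg_left (by linarith) hθ
  unfold boost
  refine ⟨mul_nonneg (h.nonneg v) (by linarith), ?_⟩
  rw [mul_comm 2]
  exact mul_le_mul_of_nonneg_left (by linarith) (h.nonneg v)

theorem left_sq_le (h : Sparse D κ P B w) (hhi : ∀ e ∈ P, ∑ u ∈ star B e, w u ≤ 1 + κ)
    (hθ : 0 ≤ θ) (hθD : θ * D ≤ 1) (hκ : 0 ≤ κ) (hκ1 : κ ≤ 1) (hp : ∀ u, θ * w u ≤ 1)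
    (hk : θ * ((D : ℝ) ^ 2 * κ) < 1) {e : α} (he : e ∈ P)
    (hPe : 0 < ∏ u ∈ star B e, (1 - θ * w u)) :
    ex (fun u => θ * w u) (fun S => left θ B w e S ^ 2) ≤
      8 * D * κ + ex (fun u => θ * w u) (left θ B w e) ^ 2 /
        ((∏ u ∈ star B e, (1 - θ * w u)) * (1 - θ * ((D : ℝ) ^ 2 * κ))) := by
  classical
  set Pe := ∏ u ∈ star B e, (1 - θ * w u)
  set k := θ * ((D : ℝ) ^ 2 * κ) with hk_def
  set a : ι → ℝ := boost θ B w with ha
  set m : ι → ℝ := fun v => ∏ u ∈ near B v, (1 - θ * w u) with hm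
  have hm0 : ∀ v, 0 ≤ m v := fun v => prod_nonneg fun u _ => sub_nonneg.2 (hp u)
  have ha0 : ∀ v ∈ star B e, 0 ≤ a v ∧ a v ≤ 2 * w v := fun v hv =>
    boost_bounds h hθ hθD ⟨e, (mem_filter.1 hv).2⟩
  set X : ι → Finset ι := fun v =>
    (star B e).filter fun v' => ∃ f ∈ (B v).erase e, f ∈ B v' with hX
  have hshare : ∀ v ∈ star B e, ∑ v' ∈ X v, a v' ≤ 2 * ((D : ℝ) * κ) := by
    intro v hv
    have hsub : X v ⊆ ((B v).erase e).biUnion fun f => star B e ∩ star B f := by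
      intro v' hv'
      obtain ⟨h1, f, hf, hf'⟩ := mem_filter.1 hv'
      exact mem_biUnion.2 ⟨f, hf, mem_inter.2 ⟨h1, mem_filter.2 ⟨mem_univ _, hf'⟩⟩⟩
    have h1 : ∑ v' ∈ X v, w v' ≤ (D : ℝ) * κ := by
      refine (sum_le_sum_of_subset_of_nonneg hsub fun u _ _ => h.nonneg u).trans
        ((sum_biUnion_le_sum w h.nonneg _ _).trans ?_)
      refine (sum_le_card_nsmul _ _ κ fun f hf => h.pair e he f
        (h.inside v (mem_of_mem_erase hf)) (mem_erase.1 hf).1.symm).trans ?_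
      rw [nsmul_eq_mul]
      exact mul_le_mul_of_nonneg_right
        (by exact_mod_cast (card_erase_le).trans (h.size v)) hκ
    refine (sum_le_sum fun v' hv' => (ha0 v' (filter_subset _ _ hv')).2).trans ?_
    rw [← mul_sum]
    linarith
  have hW : ∑ v ∈ star B e, w v ≤ 2 := by linarith [hhi e he]
  have hexp : ∀ S, left θ B w e S ^ 2 = ∑ v ∈ star B e, ∑ v' ∈ star B e,
      a v * a v' * miss (near B v ∪ near B v') S := by
    intro S
    simp only [left, sq, sum_mul_sum, ha, ← miss_mul]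
    exact sum_congr rfl fun _ _ => sum_congr rfl fun _ _ => by ring
  simp only [hexp, ex_sum, ex_smul, ex_miss]
  have hbd : ∀ v ∈ star B e, ∀ v' ∈ star B e,
      a v * a v' * ∏ u ∈ near B v ∪ near B v', (1 - θ * w u) ≤
        a v * (if v' ∈ X v then a v' else 0) + a v * m v * (a v' * m v') / (Pe * (1 - k)) := by
    intro v hv v' hv'
    have hq : 0 ≤ a v * m v * (a v' * m v') / (Pe * (1 - k)) :=
      div_nonneg (mul_nonneg (mul_nonneg (ha0 v hv).1 (hm0 v))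
        (mul_nonneg (ha0 v' hv').1 (hm0 v'))) (mul_nonneg hPe.le (by linarith))
    split_ifs with hX'
    · have : a v * a v' * ∏ u ∈ near B v ∪ near B v', (1 - θ * w u) ≤ a v * a v' :=
        mul_le_of_le_one_right (mul_nonneg (ha0 v hv).1 (ha0 v' hv').1)
          (prod_le_one (fun u _ => sub_nonneg.2 (hp u))
            fun u _ => by linarith [mul_nonneg hθ (h.nonneg u)])
      linarith
    · have hsep : ∀ f ∈ (B v).erase e, f ∉ B v' := fun f hf hf' =>
        hX' (mem_filter.2 ⟨hv', f, hf, hf'⟩)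
      rw [mul_zero, zero_add, le_div_iff₀ (mul_pos hPe (by linarith))]
      calc _ = a v * a v' * ((∏ u ∈ near B v ∪ near B v', (1 - θ * w u)) *
            (Pe * (1 - k))) := by ring
        _ ≤ a v * a v' * (m v * m v') := mul_le_mul_of_nonneg_left
            (near_union_le h hθ hp hκ hv hv' hsep)
            (mul_nonneg (ha0 v hv).1 (ha0 v' hv').1)
        _ = _ := by ring
  refine (sum_le_sum fun v hv => sum_le_sum fun v' hv' => hbd v hv v' hv').trans ?_
  simp only [sum_add_distrib]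
  refine add_le_add ?_ ?_
  · calc _ ≤ ∑ v ∈ star B e, 2 * w v * (2 * ((D : ℝ) * κ)) := by
          refine sum_le_sum fun v hv => ?_
          rw [← mul_sum, ← sum_filter,
            show (star B e).filter (fun v' => v' ∈ X v) = X v by
              rw [filter_mem_eq_inter, inter_eq_right]; exact filter_subset _ _]
          exact mul_le_mul (ha0 v hv).2 (hshare v hv)
            (sum_nonneg fun v' hv' => (ha0 v' (filter_subset _ _ hv')).1)
            (by linarith [h.nonneg v])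
      _ ≤ 8 * D * κ := by
          rw [← sum_mul, ← mul_sum]
          nlinarith [mul_le_mul_of_nonneg_right hW (mul_nonneg (Nat.cast_nonneg (α := ℝ) D) hκ)]
  · rw [left_mean, sq, sum_mul_sum, sum_div]
    simp only [sum_div]
    exact le_rfl

theorem variance_arith {EZ Pe k : ℝ} (h0 : 0 ≤ EZ) (h4 : EZ ≤ 4 * Pe) (hP : 0 < Pe)
    (hP1 : Pe ≤ 1) (hk0 : 0 ≤ k) (hk : k ≤ 1 / 10) :
    EZ ^ 2 / (Pe * (1 - k)) ≤ EZ ^ 2 / Pe + 32 * k := by
  rw [div_le_iff₀ (mul_pos hP (by linarith))]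
  have h1 : (EZ ^ 2 / Pe + 32 * k) * (Pe * (1 - k)) =
      EZ ^ 2 * (1 - k) + 32 * k * Pe * (1 - k) := by field_simp
  rw [h1]
  have hsq : EZ ^ 2 ≤ 16 * Pe := by
    have h2 := mul_self_le_mul_self h0 h4
    nlinarith [mul_le_mul_of_nonneg_left hP1 hP.le]
  nlinarith [mul_le_mul_of_nonneg_left hsq hk0,
    mul_nonneg (mul_nonneg hk0 hP.le) (by linarith : (0:ℝ) ≤ 1/10 - k)]

theorem left_mean_ge (h : Sparse D κ P B w) (hhi : ∀ e ∈ P, ∑ u ∈ star B e, w u ≤ 1 + κ)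
    (hθ : 0 ≤ θ) (hθD : θ * D ≤ 1) (hκ : 0 ≤ κ)
    (hsmall : (D : ℝ) ^ 2 * θ ^ 2 + κ ≤ 1) (hκθ : 2 * (θ * D) * κ ≤ κ)
    (hp : ∀ u, θ * w u ≤ 1) {e : α} (he : e ∈ P) :
    (∏ u ∈ star B e, (1 - θ * w u)) * (1 - (D : ℝ) ^ 2 * θ ^ 2 - κ) ≤
      ex (fun u => θ * w u) (left θ B w e) := by
  set Pe := ∏ u ∈ star B e, (1 - θ * w u) with hPe
  have hPe0 : 0 ≤ Pe := prod_nonneg fun u _ => sub_nonneg.2 (hp u)
  have hnn : (0 : ℝ) ≤ 1 - (D : ℝ) ^ 2 * θ ^ 2 - κ := by linarith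
  rw [left_mean]
  calc Pe * (1 - (D : ℝ) ^ 2 * θ ^ 2 - κ)
      ≤ Pe * ((1 - (D : ℝ) ^ 2 * θ ^ 2 - κ) * ∑ v ∈ star B e, w v) :=
        mul_le_mul_of_nonneg_left (le_mul_of_one_le_right hnn (h.cover e he)) hPe0
    _ = ∑ v ∈ star B e, w v * (Pe * (1 - (D : ℝ) ^ 2 * θ ^ 2 - κ)) := by
        rw [← sum_mul]; ring
    _ ≤ _ := by
      refine sum_le_sum fun v hv => ?_
      simp only [boost, mul_assoc]
      refine mul_le_mul_of_nonneg_left ?_ (h.nonneg v)
      have h1' : (1 : ℝ) ≤ (B v).card := by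
        exact_mod_cast card_pos.2 ⟨e, (mem_filter.1 hv).2⟩
      have h2' : ((B v).card : ℝ) ≤ D := by exact_mod_cast h.size v
      have hnp := near_le_prod h hhi hθ hp hv
      set x := θ * (((B v).card : ℝ) - 1) with hx
      have h1 : 0 ≤ x := mul_nonneg hθ (by linarith)
      have h2 : x ≤ θ * D := mul_le_mul_of_nonneg_left (by linarith) hθ
      rw [show θ * (1 + κ) * (((B v).card : ℝ) - 1) = (1 + κ) * x by rw [hx]; ring] at hnp
      have hxx : 1 - (D : ℝ) ^ 2 * θ ^ 2 - κ ≤ (1 + x) * (1 - (1 + κ) * x) := by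
        nlinarith [mul_self_le_mul_self h1 h2,
          mul_le_mul_of_nonneg_right (mul_le_mul h2 (by linarith : 1 + x ≤ 2)
            (by linarith) (by linarith)) hκ]
      calc Pe * (1 - (D : ℝ) ^ 2 * θ ^ 2 - κ) ≤ Pe * ((1 + x) * (1 - (1 + κ) * x)) :=
            mul_le_mul_of_nonneg_left hxx hPe0
        _ = (1 + x) * (Pe * (1 - (1 + κ) * x)) := by ring
        _ ≤ _ := mul_le_mul_of_nonneg_left hnp (by linarith)

/-- A surviving point rarely keeps too little weight. -/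
theorem bad_le (h : Sparse D κ P B w) (hhi : ∀ e ∈ P, ∑ u ∈ star B e, w u ≤ 1 + κ)
    (hD : 1 ≤ D) (hθ : 0 < θ) (hθD : 10 * (D : ℝ) ^ 2 * θ ≤ 1) (hκ : 0 < κ)
    (hκθ : κ ≤ (D : ℝ) ^ 2 * θ ^ 2) (hκD : (D : ℝ) ^ 2 * κ ≤ θ) {e : α} (he : e ∈ P) :
    ex (fun u => θ * w u)
      (fun S => if left θ B w e S < 1 - 3 * (D : ℝ) ^ 2 * θ ^ 2 then miss (star B e) S else 0) ≤
      48 * κ / θ ^ 4 := by
  classical
  have hDR : (1 : ℝ) ≤ D := by exact_mod_cast hD
  have hDD : (D : ℝ) ≤ (D : ℝ) ^ 2 := le_self_pow₀ hDR two_ne_zero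
  have hD2 : (1 : ℝ) ≤ (D : ℝ) ^ 2 := hDR.trans hDD
  have hθ1 : θ ≤ 1 / 10 := by nlinarith
  have hκ1 : κ ≤ θ := by nlinarith
  have hθDle : θ * D ≤ 1 / 10 := by nlinarith
  have hsq : (D : ℝ) ^ 2 * θ ^ 2 ≤ 1 / 10 := by nlinarith
  have hp : ∀ u, θ * w u ≤ 1 := fun u => by
    nlinarith [mul_le_mul_of_nonneg_left (h.small u) hθ.le]
  have hp' : ∀ u, 0 ≤ θ * w u ∧ θ * w u ≤ 1 := fun u => ⟨mul_nonneg hθ.le (h.nonneg u), hp u⟩
  set Pe := ∏ u ∈ star B e, (1 - θ * w u) with hPe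
  have hPe1 : Pe ≤ 1 := prod_le_one (fun u _ => sub_nonneg.2 (hp u))
    fun u _ => by linarith [(hp' u).1]
  have hPe0 : 0 < Pe := prod_pos fun u _ => by
    nlinarith [mul_le_mul_of_nonneg_left (h.small u) hθ.le]
  set EZ := ex (fun u => θ * w u) (left θ B w e) with hEZ
  have hEZlo : Pe * (1 - (D : ℝ) ^ 2 * θ ^ 2 - κ) ≤ EZ :=
    left_mean_ge h hhi hθ.le (by linarith) hκ.le (by linarith) (by nlinarith) hp he
  have hEZ0 : 0 ≤ EZ := le_trans (mul_nonneg hPe0.le (by linarith)) hEZlo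
  have hEZhi : EZ ≤ 4 * Pe := by
    rw [hEZ, left_mean]
    calc _ ≤ ∑ v ∈ star B e, 2 * w v * Pe := by
          refine sum_le_sum fun v hv => ?_
          exact mul_le_mul (boost_bounds h hθ.le (by linarith) ⟨e, (mem_filter.1 hv).2⟩).2
            (near_le_star h hθ.le hp hv) (prod_nonneg fun u _ => sub_nonneg.2 (hp u))
            (by linarith [h.nonneg v])
      _ = 2 * (∑ v ∈ star B e, w v) * Pe := by rw [mul_sum, sum_mul]
      _ ≤ 4 * Pe := mul_le_mul_of_nonneg_right (by linarith [hhi e he]) hPe0.le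
  set k := θ * ((D : ℝ) ^ 2 * κ) with hk
  have hk0 : 0 ≤ k := by positivity
  have hk1 : k ≤ 1 / 10 := by nlinarith
  have hZ2 : ex (fun u => θ * w u) (fun S => left θ B w e S ^ 2) ≤
      8 * D * κ + EZ ^ 2 / (Pe * (1 - k)) :=
    left_sq_le h hhi hθ.le (by linarith) hκ.le (by linarith) hp (by linarith) he hPe0
  have hd := variance_arith hEZ0 hEZhi hPe0 hPe1 hk0 hk1
  have hvar : ex (fun u => θ * w u) (fun S => left θ B w e S ^ 2) - EZ ^ 2 / Pe ≤
      48 * (D : ℝ) ^ 2 * κ := by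
    have h1 : (D : ℝ) * κ ≤ (D : ℝ) ^ 2 * κ := mul_le_mul_of_nonneg_right hDD hκ.le
    have h2 : k ≤ 1 / 10 * ((D : ℝ) ^ 2 * κ) :=
      mul_le_mul_of_nonneg_right hθ1 (by positivity)
    have h3 : 0 ≤ (D : ℝ) ^ 2 * κ := by positivity
    linarith
  set μ := EZ / Pe with hμ
  set g := (D : ℝ) ^ 2 * θ ^ 2 with hg
  have hg0 : 0 < g := by positivity
  have hμlo : 1 - g - κ ≤ μ := by rw [hμ, le_div_iff₀ hPe0, mul_comm]; exact hEZlo
  have hg3 : 3 * (D : ℝ) ^ 2 * θ ^ 2 = 3 * g := by rw [hg]; ring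
  have hpt : ∀ S, g ^ 2 *
      (if left θ B w e S < 1 - 3 * (D : ℝ) ^ 2 * θ ^ 2 then miss (star B e) S else 0) ≤
      (left θ B w e S ^ 2 + (-2 * μ) * left θ B w e S) + μ ^ 2 * miss (star B e) S := by
    intro S
    by_cases hd : Disjoint (star B e) S
    · simp only [miss, if_pos hd, mul_one]
      split_ifs with hlt
      · have : g ≤ μ - left θ B w e S := by linarith
        nlinarith [mul_self_le_mul_self hg0.le this]
      · nlinarith [sq_nonneg (μ - left θ B w e S)]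
    · have hz : left θ B w e S = 0 := sum_eq_zero fun v hv => by
        have : ¬Disjoint (near B v) S := fun hh => hd (hh.mono_left (star_subset_near hv))
        simp [miss, this]
      simp [miss, hd, hz]
  have hfin := ex_mono (fun u => θ * w u) hp' hpt
  rw [ex_smul, ex_add, ex_add, ex_smul, ex_smul, ex_miss, ← hEZ, ← hPe] at hfin
  have h2 : (-2 * μ) * EZ + μ ^ 2 * Pe = -(EZ ^ 2 / Pe) := by rw [hμ]; field_simp; ring
  rw [le_div_iff₀ (by positivity)]
  refine le_of_mul_le_mul_left ?_ (by positivity : (0 : ℝ) < (D : ℝ) ^ 4)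
  calc _ = g ^ 2 * ex (fun u => θ * w u) (fun S =>
        if left θ B w e S < 1 - 3 * (D : ℝ) ^ 2 * θ ^ 2 then miss (star B e) S else 0) := by
        rw [hg]; ring
    _ ≤ 48 * (D : ℝ) ^ 2 * κ := by linarith
    _ ≤ (D : ℝ) ^ 4 * (48 * κ) := by
        nlinarith [mul_le_mul_of_nonneg_right hD2 (by positivity : 0 ≤ (D : ℝ) ^ 2 * κ)]

/-- The expected new weight of a block. -/
theorem boost_near_le (h : Sparse D κ P B w) (hD : 1 ≤ D) (hθ : 0 < θ)
    (hθD : 10 * (D : ℝ) ^ 2 * θ ≤ 1) (hκ : 0 < κ) (hκD : (D : ℝ) ^ 2 * κ ≤ θ) {v : ι}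
    (hne : (B v).Nonempty) :
    boost θ B w v * ∏ u ∈ near B v, (1 - θ * w u) ≤
      w v * ((1 - 3 * (D : ℝ) ^ 2 * θ ^ 2) * (1 - θ * (1 - 5 * (D : ℝ) ^ 2 * θ))) := by
  classical
  have hDR : (1 : ℝ) ≤ D := by exact_mod_cast hD
  have hD2 : (1 : ℝ) ≤ (D : ℝ) ^ 2 := one_le_pow₀ hDR
  have hp' : ∀ u ∈ near B v, 0 ≤ θ * w u ∧ θ * w u ≤ 1 := fun u _ => by
    refine ⟨mul_nonneg hθ.le (h.nonneg u), ?_⟩
    nlinarith [mul_le_mul_of_nonneg_left (h.small u) hθ.le]
  set s : ℝ := ((B v).card : ℝ) with hs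
  set K := (D : ℝ) ^ 2 * κ with hK
  have hs1 : 1 ≤ s := by rw [hs]; exact_mod_cast card_pos.2 hne
  have hsD : s ≤ D := by rw [hs]; exact_mod_cast h.size v
  have hlow : s ≤ ∑ u ∈ near B v, w u + K := by
    have h1 := sum_le_sum_biUnion w h.nonneg (B v) (star B) κ hκ.le fun f hf f' hf' hne' =>
      h.pair f (h.inside v hf) f' (h.inside v hf') hne'
    have h2 : s ≤ ∑ f ∈ B v, ∑ u ∈ star B f, w u := by
      rw [hs, card_eq_sum_ones, Nat.cast_sum]
      exact sum_le_sum fun f hf => by simpa using h.cover f (h.inside v hf)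
    have h3 : s ^ 2 * κ ≤ K :=
      mul_le_mul_of_nonneg_right (pow_le_pow_left₀ (by linarith) hsD 2) hκ.le
    simp only [near]
    linarith
  have hmain := prod_mul_one_add_sum_le (near B v) hp'
  rw [← mul_sum] at hmain
  set p := ∏ u ∈ near B v, (1 - θ * w u) with hp
  have hp0 : 0 ≤ p := prod_nonneg fun u hu => sub_nonneg.2 (hp' u hu).2
  have hK1 : K ≤ 1 / 10 := by nlinarith
  have hpos : 0 < 1 + θ * (s - K) := by nlinarith
  have hp1 : p * (1 + θ * (s - K)) ≤ 1 :=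
    le_trans (mul_le_mul_of_nonneg_left
      (by nlinarith [mul_le_mul_of_nonneg_left hlow hθ.le]) hp0) hmain
  rw [boost, mul_assoc]
  refine mul_le_mul_of_nonneg_left ?_ (h.nonneg v)
  have hs0 : 0 ≤ θ * (s - 1) := mul_nonneg hθ.le (by linarith)
  refine le_of_mul_le_mul_right ?_ hpos
  rw [mul_assoc]
  refine le_trans (mul_le_of_le_one_right (by linarith) hp1) ?_
  set y := θ * (s - K) with hy
  have hy2 : y ≤ θ * D := mul_le_mul_of_nonneg_left (by nlinarith) hθ.le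
  have hy0 : 0 ≤ y := mul_nonneg hθ.le (by linarith)
  rw [show θ * (s - 1) = y - θ * (1 - K) by rw [hy]; ring]
  set Q := θ * (1 - 5 * (D : ℝ) ^ 2 * θ) with hQ
  set η := 3 * (D : ℝ) ^ 2 * θ ^ 2 with hη
  have hη0 : 0 ≤ η := by positivity
  have hQ0 : 0 ≤ Q := mul_nonneg hθ.le (by nlinarith)
  have hgoal : (η + Q) * (1 + y) ≤ θ * (1 - K) := by
    have h1 : (η + Q) = θ * (1 - 2 * (D : ℝ) ^ 2 * θ) := by rw [hη, hQ]; ring
    rw [h1, mul_assoc]
    refine mul_le_mul_of_nonneg_left ?_ hθ.le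
    nlinarith [mul_le_mul_of_nonneg_left hy2 (by nlinarith : (0:ℝ) ≤ 1 - 2 * (D : ℝ) ^ 2 * θ),
      mul_le_mul_of_nonneg_right (by nlinarith : (D : ℝ) ≤ (D : ℝ) ^ 2) hθ.le]
  nlinarith [mul_nonneg (mul_nonneg hη0 hQ0) (by linarith : (0:ℝ) ≤ 1 + y)]

end Vale.Agent.P045.Spread
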